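import Vale.Agent.P011.H738.FDefs
import Vale.Agent.P011.H271.GF
import Vale.Agent.P011.H228.C2

/-!
# Anisotropic involutions over function fields: two matrix units (helper401)

In a simple Artinian ring with an anisotropic involution each minimal left ideal is generated by a
symmetric idempotent of rank one. Over a global function field three orthogonal ones do not exist,
by the Chevalley-Lang theorem. So a ring which is not a division ring has a symmetric idempotent
`e` such that `e` and `1 - e` have rank one, and matrix units between them.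
-/

namespace Vale.Agent.P011.H401

open Polynomial Module

set_option linter.unusedSectionVars false

section ring
variable {A : Type*} [Ring A] [StarRing A]

/-- `e` is a nonzero symmetric idempotent with `e A e` a division ring. -/
structure RankOne (e : A) : Prop where
  idem : e * e = e
  star_eq : star e = e
  ne : e ≠ 0
  inv : ∀ x, e * x = x → x * e = x → x ≠ 0 → ∃ y, e * y = y ∧ y * e = y ∧ y * x = e ∧ x * y = e

theorem exists_rankOne (han : ∀ x : A, star x * x = 0 → x = 0) (I : Submodule A A)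
    (hI : IsAtom I) : ∃ e ∈ I, RankOne e := by
  have hT : ∀ x ∈ I, x ≠ 0 → ∀ y ∈ I, ∃ a, a * x = y := by
    intro x hx hx0 y hy
    have h1 : Submodule.span A {x} ≤ I := by
      rw [Submodule.span_singleton_le_iff_mem]
      exact hx
    rcases hI.le_iff.1 h1 with h | h
    · exact absurd (Submodule.span_singleton_eq_bot.1 h) hx0
    · rw [← h] at hy
      obtain ⟨a, ha⟩ := Submodule.mem_span_singleton.1 hy
      exact ⟨a, ha⟩
  obtain ⟨x, hx, hx0⟩ := I.exists_mem_ne_zero_of_ne_bot hI.1
  obtain ⟨p, hp⟩ : ∃ p, p = star x * x := ⟨_, rfl⟩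
  have hpI : p ∈ I := hp ▸ I.smul_mem (star x) hx
  have hp0 : p ≠ 0 := fun h ↦ hx0 (han x (hp ▸ h))
  have hps : star p = p := by
    rw [hp, star_mul, star_star]
  have hpp : p * p ≠ 0 := fun h ↦ hp0 (han p (by rwa [hps]))
  obtain ⟨a, ha⟩ := hT (p * p) (I.smul_mem p hpI) hpp p hpI
  obtain ⟨z, hz⟩ : ∃ z, z = a * p := ⟨_, rfl⟩
  have hzI : z ∈ I := hz ▸ I.smul_mem a hpI
  have hzp : z * p = p := by rw [hz, mul_assoc, ha]
  have hinj : ∀ y ∈ I, y * p = 0 → y = 0 := by
    intro y hy h
    by_contra hy0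
    obtain ⟨b, hb⟩ := hT y hy hy0 p hpI
    apply hpp
    nth_rewrite 1 [← hb]
    rw [mul_assoc, h, mul_zero]
  have hzz : z * z = z := by
    have h1 := hinj (z * z - z) (I.sub_mem (I.smul_mem z hzI) hzI) (by
      rw [sub_mul, mul_assoc, hzp, hzp, sub_self])
    exact sub_eq_zero.1 h1
  have hpz : p * star z = p := by
    have h1 := congrArg star hzp
    rwa [star_mul, hps] at h1
  have hzs' : z * star z = z := by
    rw [hz] at hpz ⊢
    rw [mul_assoc, hpz]
  have hzs : star z = z := by
    have h1 := congrArg star hzs'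
    rw [star_mul, star_star, hzs'] at h1
    exact h1.symm
  have hz0 : z ≠ 0 := by
    rintro rfl
    exact hp0 (by rw [← hzp, zero_mul])
  have hl : ∀ x, z * x = x → x * z = x → x ≠ 0 → ∃ y, z * y = y ∧ y * z = y ∧ y * x = z := by
    intro x h1 h2 h3
    obtain ⟨a, ha⟩ := hT x (h2 ▸ I.smul_mem x hzI) h3 z hzI
    refine ⟨z * a * z, ?_, ?_, ?_⟩
    · rw [← mul_assoc, ← mul_assoc, hzz]
    · rw [mul_assoc, hzz]
    · rw [mul_assoc, h1, mul_assoc, ha, hzz]
  refine ⟨z, hzI, hzz, hzs, hz0, fun x h1 h2 h3 ↦ ?_⟩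
  obtain ⟨y, hy1, hy2, hy3⟩ := hl x h1 h2 h3
  have hy0 : y ≠ 0 := by
    rintro rfl
    exact hz0 (by rw [← hy3, zero_mul])
  obtain ⟨w, hw1, hw2, hw3⟩ := hl y hy1 hy2 hy0
  refine ⟨y, hy1, hy2, hy3, ?_⟩
  have h4 : w = x := by
    calc w = w * z := hw2.symm
      _ = w * y * x := by rw [← hy3, mul_assoc]
      _ = x := by rw [hw3, h1]
  rw [← h4, hw3]

theorem exists_rankOne_le [IsArtinian A A] (han : ∀ x : A, star x * x = 0 → x = 0) {f : A}
    (hff : f * f = f) (hfs : star f = f) (hf0 : f ≠ 0) :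
    ∃ e, RankOne e ∧ e * f = e ∧ f * e = e := by
  have h1 : Submodule.span A {f} ≠ ⊥ := fun h ↦ hf0 (Submodule.span_singleton_eq_bot.1 h)
  obtain h | ⟨I, hI, hle⟩ := IsAtomic.eq_bot_or_exists_atom_le (Submodule.span A {f})
  · exact absurd h h1
  obtain ⟨e, heI, he⟩ := exists_rankOne han I hI
  obtain ⟨a, ha⟩ := Submodule.mem_span_singleton.1 (hle heI)
  have h2 : e * f = e := by
    rw [← ha, smul_eq_mul, mul_assoc, hff]
  refine ⟨e, he, h2, ?_⟩
  have h3 := congrArg star h2
  rwa [star_mul, he.star_eq, hfs] at h3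

theorem prime [IsSimpleRing A] {a b : A} (ha : a ≠ 0) (hb : b ≠ 0) : ∃ x, a * x * b ≠ 0 := by
  by_contra! h
  let J : TwoSidedIdeal A := TwoSidedIdeal.mk' {b | ∀ x, a * x * b = 0} (fun x ↦ mul_zero _)
    (fun {y z} hy hz x ↦ by rw [mul_add, hy, hz, add_zero])
    (fun {y} hy x ↦ by rw [mul_neg, hy, neg_zero])
    (fun {y z} hz x ↦ by rw [← mul_assoc, mul_assoc a, hz])
    (fun {y z} hy x ↦ by rw [← mul_assoc, hy, zero_mul])
  have hJ : ∀ y, y ∈ J ↔ ∀ x, a * x * y = 0 := fun y ↦ by
    rw [TwoSidedIdeal.mem_mk']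
    rfl
  rcases eq_bot_or_eq_top J with h1 | h1
  · apply hb
    have : b ∈ J := (hJ b).2 h
    rwa [h1, TwoSidedIdeal.mem_bot] at this
  · apply ha
    have : (1 : A) ∈ J := by
      rw [h1]
      trivial
    simpa using (hJ 1).1 this 1

end ring

section field
variable {k K A : Type} [Field k] [Field K] [StarRing K] [Ring A] [StarRing A]
  [Algebra k K] [Algebra k A] [Algebra K A] [IsScalarTower k K A] [StarModule K A] {n : ℕ}

theorem star_smul_k (hA : H738.Anis k K A n) (c : k) (x : A) : star (c • x) = c • star x := by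
  rw [← algebraMap_smul K c x, star_smul, (hA.fixed _).2 ⟨c, rfl⟩, algebraMap_smul]

theorem finite_k (hA : H738.Anis k K A n) : FiniteDimensional k K := by
  obtain ⟨θ, hθ⟩ := hA.star_ne
  have hd : star θ - θ ≠ 0 := sub_ne_zero.2 hθ
  let φ : (k × k) →ₗ[k] K :=
    (Algebra.linearMap k K).coprod ((LinearMap.mulRight k θ).comp (Algebra.linearMap k K))
  have hφ : Function.Surjective φ := by
    intro x
    have h1 : star ((star x - x) / (star θ - θ)) = (star x - x) / (star θ - θ) := by
      rw [star_div₀, star_sub, star_sub, star_star, star_star, ← neg_sub (star x) x,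
        ← neg_sub (star θ) θ, neg_div_neg_eq]
    obtain ⟨b, hb⟩ := (hA.fixed _).1 h1
    have h2 : star (x - algebraMap k K b * θ) = x - algebraMap k K b * θ := by
      rw [star_sub, star_mul', (hA.fixed _).2 ⟨b, rfl⟩, hb, sub_eq_sub_iff_sub_eq_sub,
        ← mul_sub, div_mul_cancel₀ _ hd]
    obtain ⟨a, ha⟩ := (hA.fixed _).1 h2
    refine ⟨(a, b), ?_⟩
    change algebraMap k K a + algebraMap k K b * θ = x
    rw [ha]
    ring
  exact Module.Finite.of_surjective φ hφ

theorem not_three [H271.GFF k] (hA : H738.Anis k K A n) (hn : n ≠ 0) {e e₂ e₃ : A}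
    (he : RankOne e) (he₂ : e₂ * e₂ = e₂) (he₃ : e₃ * e₃ = e₃) (h2 : e₂ ≠ 0) (h3 : e₃ ≠ 0)
    (h12 : e * e₂ = 0) (h13 : e * e₃ = 0) (h23 : e₂ * e₃ = 0) : False := by
  have := hA.simple
  have := finite_k hA
  have : FiniteDimensional K A := by
    apply Module.finite_of_finrank_pos
    rw [hA.finrank_eq]
    positivity
  have : FiniteDimensional k A := FiniteDimensional.trans k K A
  obtain ⟨a, ha⟩ := prime h2 he.ne
  obtain ⟨b, hb⟩ := prime h3 he.ne
  obtain ⟨u, hu⟩ : ∃ u, u = e₂ * a * e := ⟨_, rfl⟩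
  obtain ⟨w, hw⟩ : ∃ w, w = e₃ * b * e := ⟨_, rfl⟩
  rw [← hu] at ha
  rw [← hw] at hb
  have hu2 : e₂ * u = u := by rw [hu, ← mul_assoc, ← mul_assoc, he₂]
  have hw3 : e₃ * w = w := by rw [hw, ← mul_assoc, ← mul_assoc, he₃]
  have hu1 : u * e = u := by rw [hu, mul_assoc, he.idem]
  have hw1 : w * e = w := by rw [hw, mul_assoc, he.idem]
  let V : Submodule k A := LinearMap.eqLocus (LinearMap.mulRight k e) LinearMap.id
  have hV : ∀ x, x ∈ V ↔ x * e = x := fun x ↦ Iff.rfl
  let L : Submodule k A := LinearMap.eqLocus (LinearMap.mulLeft k e) LinearMap.id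
  have hL : ∀ x, x ∈ L ↔ e * x = x := fun x ↦ Iff.rfl
  let D : Submodule k A := L ⊓ V
  have hD : ∀ x, x ∈ D ↔ e * x = x ∧ x * e = x := fun x ↦ Iff.rfl
  let S : Submodule k A :=
    { carrier := {x | star x = x}
      zero_mem' := star_zero _
      add_mem' := fun {x y} hx hy ↦ by
        change star (x + y) = x + y
        rw [star_add]
        exact congrArg₂ _ hx hy
      smul_mem' := fun c x hx ↦ by
        change star (c • x) = c • x
        rw [star_smul_k hA]
        exact congrArg _ hx }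
  have hS : ∀ x, x ∈ S ↔ star x = x := fun x ↦ Iff.rfl
  let W : Submodule k A := D ⊓ S
  have hW : ∀ x, x ∈ W ↔ (e * x = x ∧ x * e = x) ∧ star x = x := fun x ↦ Iff.rfl
  have hD1 : ∀ x : D, e * (x : A) = x := fun x ↦ x.2.1
  have hD2 : ∀ x : D, (x : A) * e = x := fun x ↦ x.2.2
  have hW1 : ∀ x : W, e * (x : A) = x := fun x ↦ x.2.1.1
  have hW2 : ∀ x : W, (x : A) * e = x := fun x ↦ x.2.1.2
  have hW3 : ∀ x : W, star (x : A) = x := fun x ↦ x.2.2
  -- left multiplication by `u` and `w` is injective on `D`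
  have hinj : ∀ t, t * e = t → t ≠ 0 → ∀ y ∈ D, t * y = 0 → y = 0 := by
    intro t ht ht0 y hy h
    by_contra hy0
    obtain ⟨z, -, -, -, hz⟩ := he.inv y hy.1 hy.2 hy0
    apply ht0
    rw [← ht, ← hz, ← mul_assoc, h, zero_mul]
  have hD0 : 0 < finrank k D := by
    have : Nontrivial D := ⟨⟨0, ⟨e, he.idem, he.idem⟩, fun h ↦ he.ne (congrArg Subtype.val h).symm⟩⟩
    exact Module.finrank_pos
  -- `3 dim D ≤ dim V`
  have hDV : 3 * finrank k D ≤ finrank k V := by
    let φ : (D × D × D) →ₗ[k] A := D.subtype.coprod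
      (((LinearMap.mulLeft k u).comp D.subtype).coprod ((LinearMap.mulLeft k w).comp D.subtype))
    have hφ : ∀ x, φ x = (x.1 : A) + (u * (x.2.1 : A) + w * (x.2.2 : A)) := fun x ↦ rfl
    have hφV : ∀ x, φ x ∈ V := by
      intro x
      rw [hV, hφ, add_mul, add_mul, mul_assoc, mul_assoc, hD2, hD2, hD2]
    have hφi : Function.Injective (φ.codRestrict V hφV) := by
      rw [injective_iff_map_eq_zero]
      intro x hx
      have hx' : (x.1 : A) + (u * (x.2.1 : A) + w * (x.2.2 : A)) = 0 := by
        rw [← hφ]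
        exact congrArg Subtype.val hx
      have h1 : (x.1 : A) = 0 := by
        have h := congrArg (e * ·) hx'
        simp only [mul_add, mul_zero] at h
        rw [← hu2, ← hw3, ← mul_assoc, ← mul_assoc, ← mul_assoc, ← mul_assoc, h12, h13] at h
        rwa [zero_mul, zero_mul, zero_mul, zero_mul, add_zero, add_zero, hD1] at h
      have h2' : (x.2.1 : A) = 0 := by
        have h := congrArg (e₂ * ·) hx'
        simp only [mul_add, mul_zero, h1] at h
        rw [← mul_assoc, ← mul_assoc, hu2, ← hw3, ← mul_assoc, h23] at h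
        exact hinj u hu1 ha _ x.2.1.2 (by simpa using h)
      have h3' : (x.2.2 : A) = 0 := by
        rw [h1, h2'] at hx'
        exact hinj w hw1 hb _ x.2.2.2 (by simpa using hx')
      exact Prod.ext (Subtype.ext h1) (Prod.ext (Subtype.ext h2') (Subtype.ext h3'))
    have := LinearMap.finrank_le_finrank_of_injective hφi
    rw [Module.finrank_prod, Module.finrank_prod] at this
    omega
  -- `2 dim W ≤ dim D`
  have hWD : 2 * finrank k W ≤ finrank k D := by
    obtain ⟨θ, hθ⟩ := hA.star_ne
    let m : A →ₗ[k] A := (LinearMap.lsmul K A θ).restrictScalars k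
    have hm : ∀ x, m x = θ • x := fun x ↦ rfl
    let φ : (W × W) →ₗ[k] A := W.subtype.coprod (m.comp W.subtype)
    have hφ : ∀ x, φ x = (x.1 : A) + θ • (x.2 : A) := fun x ↦ rfl
    have hφD : ∀ x, φ x ∈ D := by
      intro x
      rw [hD, hφ]
      constructor
      · rw [mul_add, mul_smul_comm, hW1, hW1]
      · rw [add_mul, smul_mul_assoc, hW2, hW2]
    have hφi : Function.Injective (φ.codRestrict D hφD) := by
      rw [injective_iff_map_eq_zero]
      intro x hx
      have hx' : (x.1 : A) + θ • (x.2 : A) = 0 := by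
        rw [← hφ]
        exact congrArg Subtype.val hx
      have h1 := congrArg star hx'
      rw [star_add, star_smul, hW3, hW3, star_zero] at h1
      have h2 : (star θ - θ) • (x.2 : A) = 0 := by
        rw [sub_smul, sub_eq_zero]
        exact add_left_cancel (h1.trans hx'.symm)
      have h3 : (x.2 : A) = 0 := by
        rcases smul_eq_zero.1 h2 with h | h
        · exact absurd (sub_eq_zero.1 h) hθ
        · exact h
      have h4 : (x.1 : A) = 0 := by
        rwa [h3, smul_zero, add_zero] at hx'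
      exact Prod.ext (Subtype.ext h4) (Subtype.ext h3)
    have := LinearMap.finrank_le_finrank_of_injective hφi
    rw [Module.finrank_prod] at this
    omega
  -- the quadratic map `x ↦ star x * x` from `V` to `W`
  obtain ⟨P, hP⟩ := W.subtype.exists_leftInverse_of_injective
    (LinearMap.ker_eq_bot.2 W.injective_subtype)
  have hP' : ∀ x : W, P x = x := fun x ↦ LinearMap.congr_fun hP x
  let B : V →ₗ[k] V →ₗ[k] W := LinearMap.mk₂ k (fun x y ↦ P (star (x : A) * y))
    (fun x y z ↦ by rw [Submodule.coe_add, star_add, add_mul, map_add])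
    (fun c x y ↦ by rw [Submodule.coe_smul, star_smul_k hA, smul_mul_assoc, map_smul])
    (fun x y z ↦ by rw [Submodule.coe_add, mul_add, map_add])
    (fun c x y ↦ by rw [Submodule.coe_smul, mul_smul_comm, map_smul])
  obtain ⟨F, _, _, φ, hφ1, hφ2⟩ := H271.GFF.out (k := k)
  let _ := φ.toAlgebra
  have : FiniteDimensional (RatFunc F) k := hφ1
  obtain ⟨x, hx0, hx⟩ := H228.exists_zero_bilin F (RatFunc F) B (by omega)
  have hxW : star (x : A) * x ∈ W := by
    have h1 : (x : A) * e = x := x.2
    rw [hW]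
    refine ⟨⟨?_, ?_⟩, ?_⟩
    · rw [← mul_assoc]
      have h := congrArg star h1
      rw [star_mul, he.star_eq] at h
      rw [h]
    · rw [mul_assoc, h1]
    · rw [star_mul, star_star]
  have h1 : P (star (x : A) * x) = 0 := hx
  rw [show star (x : A) * x = ((⟨_, hxW⟩ : W) : A) from rfl, hP'] at h1
  exact hx0 (Subtype.ext (hA.anisotropic _ (congrArg Subtype.val h1)))

variable [H271.GFF k]

theorem exists_peirce (hA : H738.Anis k K A n) (hn : n ≠ 0)
    (hdiv : ∃ x : A, x ≠ 0 ∧ ¬ IsUnit x) :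
    ∃ e u v : A, e * e = e ∧ star e = e ∧ e * u = u ∧ u * e = 0 ∧ e * v = 0 ∧ v * e = v ∧
      u * v = e ∧ v * u = 1 - e ∧ ∀ x, e * x = x → x * e = x → x ≠ 0 → IsUnit (x + (1 - e)) := by
  have := hA.simple
  have : FiniteDimensional K A := by
    apply Module.finite_of_finrank_pos
    rw [hA.finrank_eq]
    positivity
  have : IsArtinianRing A := IsArtinianRing.of_finite K A
  obtain ⟨x₀, hx₀, hx₀u⟩ := hdiv
  have h10 : (1 : A) ≠ 0 := one_ne_zero
  obtain ⟨e, he, -, -⟩ := exists_rankOne_le hA.anisotropic (mul_one (1 : A)) (star_one A) h10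
  have hunit : ∀ x, e * x = x → x * e = x → x ≠ 0 → IsUnit (x + (1 - e)) := by
    intro x h1 h2 h3
    obtain ⟨y, h4, h5, h6, h7⟩ := he.inv x h1 h2 h3
    have key : ∀ x y, e * x = x → x * e = x → e * y = y → y * e = y → x * y = e →
        (x + (1 - e)) * (y + (1 - e)) = 1 := by
      intro x y h1 h2 h4 h5 h7
      have h8 : x * (1 - e) = 0 := by rw [mul_sub, mul_one, h2, sub_self]
      have h9 : (1 - e) * y = 0 := by rw [sub_mul, one_mul, h4, sub_self]
      have h10 : (1 - e) * (1 - e) = 1 - e := by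
        rw [mul_sub, mul_one, sub_mul, one_mul, he.idem, sub_self, sub_zero]
      rw [add_mul, mul_add, mul_add, h7, h8, h9, h10]
      abel
    exact ⟨⟨x + (1 - e), y + (1 - e), key x y h1 h2 h4 h5 h7, key y x h4 h5 h1 h2 h6⟩, rfl⟩
  obtain ⟨f, hf⟩ : ∃ f, f = 1 - e := ⟨_, rfl⟩
  have hff : f * f = f := by
    rw [hf, mul_sub, mul_one, sub_mul, one_mul, he.idem, sub_self, sub_zero]
  have hfs : star f = f := by rw [hf, star_sub, star_one, he.star_eq]
  have hef : e * f = 0 := by rw [hf, mul_sub, mul_one, he.idem, sub_self]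
  have hfe : f * e = 0 := by rw [hf, sub_mul, one_mul, he.idem, sub_self]
  have hf0 : f ≠ 0 := by
    intro h
    have h1 : e = 1 := by
      rw [hf, sub_eq_zero] at h
      exact h.symm
    apply hx₀u
    have := hunit x₀ (by rw [h1, one_mul]) (by rw [h1, mul_one]) hx₀
    rwa [h1, sub_self, add_zero] at this
  obtain ⟨e', he', h1, h2⟩ := exists_rankOne_le hA.anisotropic hff hfs hf0
  have hee' : e * e' = 0 := by rw [← h2, ← mul_assoc, hef, zero_mul]
  have hfe' : f = e' := by
    by_contra hne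
    have h3 : f - e' ≠ 0 := sub_ne_zero.2 hne
    refine not_three hA hn (e₂ := e') (e₃ := f - e') he he'.idem ?_ he'.ne h3 hee' ?_ ?_
    · rw [mul_sub, sub_mul, sub_mul, hff, h1, h2, he'.idem, sub_self, sub_zero]
    · rw [mul_sub, hef, hee', sub_self]
    · rw [mul_sub, h1, he'.idem, sub_self]
  have hfR : RankOne f := hfe' ▸ he'
  obtain ⟨a, ha⟩ := prime he.ne hf0
  obtain ⟨u, hu⟩ : ∃ u, u = e * a * f := ⟨_, rfl⟩
  rw [← hu] at ha
  have heu : e * u = u := by rw [hu, ← mul_assoc, ← mul_assoc, he.idem]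
  have huf : u * f = u := by rw [hu, mul_assoc, hff]
  have hue : u * e = 0 := by rw [hu, mul_assoc, hfe, mul_zero]
  have hfu : f * star u = star u := by
    have h := congrArg star huf
    rwa [star_mul, hfs] at h
  have hsu : star u * e = star u := by
    have h := congrArg star heu
    rwa [star_mul, he.star_eq] at h
  obtain ⟨s, hs1, hs2, hs3, -⟩ := hfR.inv (star u * u) (by rw [← mul_assoc, hfu])
    (by rw [mul_assoc, huf]) (fun h ↦ ha (hA.anisotropic u h))
  have hv1 : e * (s * star u) = 0 := by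
    rw [← hs1, ← mul_assoc, ← mul_assoc, hef, zero_mul, zero_mul]
  have hv2 : s * star u * e = s * star u := by rw [mul_assoc, hsu]
  have hvu : s * star u * u = f := by rw [mul_assoc, hs3]
  refine ⟨e, u, s * star u, he.idem, he.star_eq, heu, hue, hv1, hv2, ?_, by rw [hvu, hf], hunit⟩
  have h4 : u * (s * star u) * (u * (s * star u)) = u * (s * star u) := by
    calc u * (s * star u) * (u * (s * star u)) = u * (s * star u * u) * (s * star u) := by
          noncomm_ring
      _ = u * (s * star u) := by rw [hvu, huf]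
  have h5 : u * (s * star u) ≠ 0 := by
    intro h
    apply hf0
    calc f = f * f := hff.symm
      _ = s * star u * (u * (s * star u)) * u := by rw [← hvu]; noncomm_ring
      _ = 0 := by rw [h, mul_zero, zero_mul]
  obtain ⟨t, -, -, h6, -⟩ := he.inv (u * (s * star u)) (by rw [← mul_assoc, heu])
    (by rw [mul_assoc, hv2]) h5
  calc u * (s * star u) = e * (u * (s * star u)) := by rw [← mul_assoc e, heu]
    _ = t * (u * (s * star u) * (u * (s * star u))) := by rw [← h6, mul_assoc]
    _ = e := by rw [h4, h6]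

end field

end Vale.Agent.P011.H401
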