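import Vale.Agent.P011.H74.BCR

/-!
# Symmetric elements generated by small ones and infinitely many multiples of a lattice

Piece P6 (triv_of_infinite) of the list of helper40: a subgroup of `A` containing the small
symmetric elements, the symmetric elements of the order, and the multiples of the latter by
infinitely many scalars distinct modulo `O`, contains all symmetric elements.
-/

open Topology Module Set
open scoped Pointwise

namespace Vale.Agent.P011.H401

open Vale.Agent.P011.H74

section lem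

variable {k R : Type*} [Field k] [CommRing R] [TopologicalSpace R] [IsTopologicalRing R]
  [Algebra k R]

/-- Among infinitely many scalars two are close to each other modulo a cocompact subring. -/
theorem exists_small {O : Subring k}
    (hOc : ∃ K : Set R, IsCompact K ∧ ∀ r : R, ∃ c ∈ O, r - algebraMap k R c ∈ K)
    (s : ℕ → k) {N : Set R} (hN : N ∈ 𝓝 (0 : R)) :
    ∃ i j, i ≠ j ∧ ∃ c ∈ O, algebraMap k R (s i - s j - c) ∈ N := by
  obtain ⟨K, hK, hKO⟩ := hOc
  choose c hcO hcK using hKO
  have hsub : Filter.Tendsto (fun p : R × R => p.1 - p.2) (𝓝 (0 : R) ×ˢ 𝓝 (0 : R)) (𝓝 0) := by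
    have h := (continuous_sub (G := R)).tendsto ((0 : R), (0 : R))
    rwa [nhds_prod_eq, sub_zero] at h
  obtain ⟨V, hV, hVN⟩ : ∃ V ∈ 𝓝 (0 : R), ∀ x ∈ V, ∀ y ∈ V, x - y ∈ N := by
    obtain ⟨V1, hV1, V2, hV2, h⟩ := Filter.mem_prod_iff.1 (hsub hN)
    refine ⟨V1 ∩ V2, Filter.inter_mem hV1 hV2, fun x hx y hy => ?_⟩
    exact h (show (x, y) ∈ V1 ×ˢ V2 from ⟨hx.1, hy.2⟩)
  have hcov : ∀ x ∈ K, {y : R | y - x ∈ V} ∈ 𝓝 x := by
    intro x _
    have h : Filter.Tendsto (fun y : R => y - x) (𝓝 x) (𝓝 0) := by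
      have h1 : Continuous fun y : R => y - x := continuous_id.sub continuous_const
      have h2 := h1.tendsto x
      rwa [sub_self] at h2
    exact h hV
  obtain ⟨t, -, ht⟩ := hK.elim_nhds_subcover _ hcov
  have hx : ∀ i : ℕ, ∃ x : t, algebraMap k R (s i) - algebraMap k R (c (algebraMap k R (s i)))
      - (x : R) ∈ V := by
    intro i
    obtain ⟨x, hxt, hxV⟩ := mem_iUnion₂.1 (ht (hcK (algebraMap k R (s i))))
    exact ⟨⟨x, hxt⟩, hxV⟩
  choose x hx using hx
  obtain ⟨i, j, hij, hxx⟩ := Finite.exists_ne_map_eq_of_infinite x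
  refine ⟨i, j, hij, c (algebraMap k R (s i)) - c (algebraMap k R (s j)),
    O.sub_mem (hcO _) (hcO _), ?_⟩
  have h := hVN _ (hx i) _ (hx j)
  rw [hxx] at h
  have h2 : algebraMap k R (s i - s j - (c (algebraMap k R (s i)) - c (algebraMap k R (s j)))) =
      (algebraMap k R (s i) - algebraMap k R (c (algebraMap k R (s i))) - (x j : R)) -
      (algebraMap k R (s j) - algebraMap k R (c (algebraMap k R (s j))) - (x j : R)) := by
    simp only [map_sub]
    ring
  rw [h2]
  exact h

end lem

section P6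
variable {k R A E ι : Type*} [Field k] [CommRing R] [TopologicalSpace R] [IsTopologicalRing R]
  [Algebra k R] [Ring A] [StarRing A] [Algebra k A] [Ring E] [StarRing E] [TopologicalSpace E]
  [IsTopologicalRing E] [Algebra R E] [Fintype ι] [DecidableEq ι] (B : BCR k R A E ι)
  [Nontrivial R] [LocallyCompactSpace R] [T2Space R]

include B

omit [IsTopologicalRing R] [IsTopologicalRing E] [LocallyCompactSpace R] [T2Space R] in
theorem j_injective : Function.Injective B.j := by
  intro y y' hyy
  apply B.a.repr.injective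
  ext i
  have h2 := B.φ_eq y i
  rw [hyy, B.φ_eq y' i] at h2
  exact ((algebraMap k R).injective h2).symm

omit [IsTopologicalRing R] [IsTopologicalRing E] [LocallyCompactSpace R] [T2Space R] in
theorem star_smul' (c : k) (y : A) : star (c • y) = c • star y := by
  apply j_injective B
  rw [B.j_star, B.j_smul, B.star_smul, B.j_smul, B.j_star]

omit [IsTopologicalRing E] [Nontrivial R] [LocallyCompactSpace R] [T2Space R] in
/-- The order is cocompact. -/
theorem exists_compact {O : Subring k}
    (hOc : ∃ K : Set R, IsCompact K ∧ ∀ r : R, ∃ c ∈ O, r - algebraMap k R c ∈ K)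
    {Lam : Subring A} (H : IsOrdR B.a O Lam) :
    ∃ C : Set E, IsCompact C ∧ ∀ e : E, ∃ l ∈ Lam, e - B.j l ∈ C := by
  obtain ⟨K, hK, hKO⟩ := hOc
  obtain ⟨d, hd, hlo⟩ := H.lo
  have hunit : algebraMap k R d * algebraMap k R d⁻¹ = 1 := by
    rw [← map_mul, mul_inv_cancel₀ hd, map_one]
  refine ⟨B.φ.symm '' ((fun v : ι → R => algebraMap k R d • v) '' (Set.univ.pi fun _ => K)),
    ?_, ?_⟩
  · exact ((isCompact_univ_pi fun _ => hK).image (continuous_const_smul _)).image
      B.φ.symm.continuous
  · intro e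
    choose c hcO hcK using hKO
    set r : ι → R := fun i => algebraMap k R d⁻¹ * B.φ e i with hr
    refine ⟨∑ i, (d * c (r i)) • B.a i, hlo (fun i => c (r i)) fun i => hcO _, ?_⟩
    refine ⟨algebraMap k R d • fun i => r i - algebraMap k R (c (r i)), ⟨_, ?_, rfl⟩, ?_⟩
    · exact fun i _ => hcK (r i)
    · rw [ContinuousLinearEquiv.symm_apply_eq]
      funext i
      rw [map_sub, Pi.sub_apply, B.φ_eq]
      have h1 : B.a.repr (∑ l, (d * c (r l)) • B.a l) i = d * c (r i) := by
        rw [Basis.repr_sum_self]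
      rw [h1, map_mul, Pi.smul_apply, smul_eq_mul, mul_sub, hr]
      simp only
      rw [← mul_assoc, hunit, one_mul]

theorem triv_of_infinite {O : Subring k}
    (hOc : ∃ K : Set R, IsCompact K ∧ ∀ r : R, ∃ c ∈ O, r - algebraMap k R c ∈ K)
    {Lam : Subring A} (H : IsOrdR B.a O Lam) (hOL : ∀ c ∈ O, ∀ y ∈ Lam, c • y ∈ Lam) {q : A}
    (hq : ∀ x, q * x = x * q) (hq1 : q + star q = 1) (hqL : q ∈ Lam) (Z : AddSubgroup A) {W : Set E} (hW : W ∈ 𝓝 (0 : E))
    (hWZ : ∀ y : A, star y = y → B.j y ∈ W → y ∈ Z)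
    (hLZ : ∀ y ∈ Lam, star y = y → y ∈ Z) (s : ℕ → k)
    (hs : ∀ i j, i ≠ j → s i - s j ∉ O) (hsZ : ∀ i, ∀ y ∈ Lam, star y = y → s i • y ∈ Z) :
    ∀ y : A, star y = y → y ∈ Z := by
  intro y0 hy0
  have hcs : ContinuousStar E := B.continuousStar
  obtain ⟨C, hC, hCL⟩ := exists_compact B hOc H
  -- the symmetrization
  set S : E → E := fun x => B.j q * x + star (B.j q * x) with hS
  have hScont : Continuous S :=
    (continuous_const.mul continuous_id).add (continuous_const.mul continuous_id).star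
  have hSC : IsCompact (S '' C) := hC.image hScont
  -- scalars near zero move the compact set into W
  obtain ⟨N, hN, hNW⟩ : ∃ N ∈ 𝓝 (0 : R), ∀ r ∈ N, ∀ x ∈ S '' C, r • x ∈ W := by
    have hsm : Continuous fun p : R × E => p.1 • p.2 := by
      have h : Continuous fun p : R × E => B.φ.symm (p.1 • B.φ p.2) :=
        B.φ.symm.continuous.comp
          (continuous_fst.smul (B.φ.continuous.comp continuous_snd))
      refine h.congr fun p => ?_
      rw [map_smul, ContinuousLinearEquiv.symm_apply_apply]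
    obtain ⟨W', hW'W, hW'o, hW'0⟩ := mem_nhds_iff.1 hW
    have ho : IsOpen ((fun p : R × E => p.1 • p.2) ⁻¹' W') := hW'o.preimage hsm
    have hsubset : ({0} : Set R) ×ˢ (S '' C) ⊆ (fun p : R × E => p.1 • p.2) ⁻¹' W' := by
      rintro ⟨r, x⟩ ⟨hr, -⟩
      rw [mem_singleton_iff] at hr
      subst hr
      change (0 : R) • x ∈ W'
      rwa [zero_smul]
    obtain ⟨u, v, hu, hv, h0u, hCv, huv⟩ :=
      generalized_tube_lemma isCompact_singleton hSC ho hsubset
    refine ⟨u, hu.mem_nhds (h0u rfl), fun r hr x hx => hW'W ?_⟩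
    exact huv (mk_mem_prod hr (hCv hx))
  obtain ⟨i, j, hij, c, hcO, hcN⟩ := exists_small hOc s hN
  set z : k := s i - s j - c with hz
  have hz0 : z ≠ 0 := by
    intro h
    apply hs i j hij
    have : s i - s j = c := sub_eq_zero.1 h
    rw [this]
    exact hcO
  have hzZ : ∀ y ∈ Lam, star y = y → z • y ∈ Z := by
    intro y hy hys
    rw [hz, sub_smul, sub_smul]
    refine Z.sub_mem (Z.sub_mem (hsZ i y hy hys) (hsZ j y hy hys)) (hLZ _ (hOL c hcO y hy) ?_)
    rw [star_smul' B, hys]
  -- approximate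
  set y : A := z⁻¹ • y0 with hy
  have hys : star y = y := by rw [hy, star_smul' B, hy0]
  obtain ⟨l, hl, hlC⟩ := hCL (B.j y)
  set l' : A := q * l + star (q * l) with hl'
  have hl'L : l' ∈ Lam :=
    Lam.add_mem (Lam.mul_mem hqL hl) (H.star_mem _ (Lam.mul_mem hqL hl))
  have hl's : star l' = l' := by rw [hl', star_add, star_star, add_comm]
  have hsym : q * y + star (q * y) = y := by
    have hq2 : star (q * y) = star q * y := by
      rw [star_mul, hys]
      have h1 := congrArg star (hq y)
      rw [star_mul, star_mul, hys] at h1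
      exact h1
    rw [hq2, ← add_mul, hq1, one_mul]
  have hdiff : B.j (y - l') = S (B.j y - B.j l) := by
    rw [hS]
    simp only
    rw [← map_sub, ← map_mul, ← B.j_star, ← map_add, mul_sub, star_sub]
    congr 1
    rw [hl']
    nth_rewrite 1 [← hsym]
    abel
  have hmem : y0 - z • l' ∈ Z := by
    apply hWZ
    · rw [star_sub, hy0, star_smul' B, hl's]
    · have h1 : y0 - z • l' = z • (y - l') := by
        rw [smul_sub, hy, smul_smul, mul_inv_cancel₀ hz0, one_smul]
      rw [h1, B.j_smul, hdiff]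
      exact hNW _ hcN _ (mem_image_of_mem S hlC)
  have h2 := Z.add_mem hmem (hzZ l' hl'L hl's)
  rwa [sub_add_cancel] at h2

end P6

end Vale.Agent.P011.H401
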