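import Vale.Agent.P011.H973.GoodPrime

/-!
# Almost all primes are good: symmetric elements of the residue algebra generate it (helper401)

The statements of `H973/GoodPrime.lean` with three more conclusions: the order of the residue
algebra, the second central element, and that a nonzero symmetric element generates the residue
algebra as a two-sided ideal.
-/

set_option autoImplicit false
set_option linter.unusedSectionVars false

open IsDedekindDomain

universe u

namespace Vale.Agent.P011.H401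

open Vale.Agent.P011.H973

section Sym

variable {F A ι : Type*} [Field F] [Ring A] [StarRing A]

/-- `z` is a sum of elements `x e y` -/
def Gen (e z : A) : Prop := ∃ (r : ℕ) (x y : Fin r → A), ∑ i, x i * e * y i = z

theorem Gen.add {e z w : A} (hz : Gen e z) (hw : Gen e w) : Gen e (z + w) := by
  obtain ⟨r, x, y, rfl⟩ := hz
  obtain ⟨s, x', y', rfl⟩ := hw
  refine ⟨r + s, Fin.append x x', Fin.append y y', ?_⟩
  rw [Fin.sum_univ_add]
  simp only [Fin.append_left, Fin.append_right]

theorem Gen.zero (e : A) : Gen e 0 := ⟨0, Fin.elim0, Fin.elim0, by simp⟩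

theorem Gen.sum {e : A} {κ : Type*} (s : Finset κ) (z : κ → A) (h : ∀ i ∈ s, Gen e (z i)) :
    Gen e (∑ i ∈ s, z i) := by
  classical
  induction s using Finset.induction_on with
  | empty => exact Gen.zero e
  | insert a s ha ih =>
    rw [Finset.sum_insert ha]
    exact (h a (Finset.mem_insert_self _ _)).add
      (ih fun i hi => h i (Finset.mem_insert_of_mem hi))

theorem Gen.mul_left {e z : A} (hz : Gen e z) (w : A) : Gen e (w * z) := by
  obtain ⟨r, x, y, rfl⟩ := hz
  refine ⟨r, fun i => w * x i, y, ?_⟩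
  rw [Finset.mul_sum]
  simp only [mul_assoc]

theorem Gen.star {e z : A} (he : star e = e) (hz : Gen e z) : Gen e (star z) := by
  obtain ⟨r, x, y, rfl⟩ := hz
  refine ⟨r, fun i => Star.star (y i), fun i => Star.star (x i), ?_⟩
  rw [star_sum]
  simp only [star_mul, he, mul_assoc]

/-- a nonzero symmetric element generates the algebra as a two-sided ideal -/
theorem exists_one_of_sym [Fintype ι] [DecidableEq ι] (γ : F →+* Subring.center A)
    (hγs : ∀ c, star (γ c : A) = γ c)
    (θ : Subring.center A) {T N : F} (hθs : star (θ : A) = γ T - θ)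
    (hθθ : θ * θ = γ T * θ - γ N) (hdisc : T ^ 2 - 4 * N ≠ 0) (b : ι → A)
    (hg : Function.Bijective fun c : ι → F × F =>
      ∑ l, ((γ (c l).1 + γ (c l).2 * θ : Subring.center A) : A) * b l)
    (hT : ∀ i j, ∃ (m : ℕ) (x y : Fin m → A), ∀ l, ∑ t, x t * b l * y t = if l = j then b i else 0)
    (e : A) (he : star e = e) (he0 : e ≠ 0) :
    ∃ (r : ℕ) (x y : Fin r → A), ∑ i, x i * e * y i = 1 := by
  classical
  change Gen e 1
  obtain ⟨c, hc⟩ := hg.2 e
  obtain ⟨d, hd⟩ := hg.2 1
  simp only at hc hd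
  obtain ⟨j, hj⟩ : ∃ j, c j ≠ 0 := by
    by_contra! h
    apply he0
    rw [← hc]
    refine Finset.sum_eq_zero fun l _ => ?_
    rw [h l]
    simp
  obtain ⟨p, hp⟩ : ∃ p, p = (c j).1 := ⟨_, rfl⟩
  obtain ⟨q, hq⟩ : ∃ q, q = (c j).2 := ⟨_, rfl⟩
  have hpq : ¬ (p = 0 ∧ q = 0) := fun h => hj (Prod.ext (hp ▸ h.1) (hq ▸ h.2))
  have h1 : ∀ i, Gen e (((γ p + γ q * θ : Subring.center A) : A) * b i) := by
    intro i
    obtain ⟨m, x, y, h⟩ := hT i j
    refine ⟨m, x, y, ?_⟩
    have h2 : ∀ t, x t * e * y t = ∑ l, ((γ (c l).1 + γ (c l).2 * θ : Subring.center A) : A) *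
        (x t * b l * y t) := by
      intro t
      rw [← hc, Finset.mul_sum, Finset.sum_mul]
      refine Finset.sum_congr rfl fun l _ => ?_
      rw [← mul_assoc, ← center_comm _ (x t)]
      simp only [mul_assoc]
    simp only [h2]
    rw [Finset.sum_comm]
    simp only [← Finset.mul_sum, h, mul_ite, mul_zero]
    rw [Finset.sum_ite_eq' Finset.univ j, if_pos (Finset.mem_univ j), hp, hq]
  have h2 : Gen e ((γ p + γ q * θ : Subring.center A) : A) := by
    have h3 : ((γ p + γ q * θ : Subring.center A) : A) = ∑ i,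
        ((γ (d i).1 + γ (d i).2 * θ : Subring.center A) : A) *
          (((γ p + γ q * θ : Subring.center A) : A) * b i) := by
      conv_lhs => rw [← mul_one ((γ p + γ q * θ : Subring.center A) : A), ← hd, Finset.mul_sum]
      refine Finset.sum_congr rfl fun i _ => ?_
      rw [← mul_assoc, center_comm, mul_assoc]
    rw [h3]
    exact Gen.sum _ _ fun i _ => (h1 i).mul_left _
  have h3 := Gen.star he h2
  have h4 : star (((γ p + γ q * θ : Subring.center A) : A)) =
      ((γ p + γ q * (γ T - θ) : Subring.center A) : A) := by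
    rw [Subring.coe_add, Subring.coe_mul, star_add, star_mul, hγs, hγs, hθs, ← center_comm (γ q)]
    rfl
  rw [h4] at h3
  have hs : Gen e ((γ (2 * p + q * T) : Subring.center A) : A) := by
    have h5 := h2.add h3
    rw [← Subring.coe_add] at h5
    convert h5 using 2
    simp only [map_add, map_mul, map_ofNat]
    ring
  have hn : Gen e ((γ (p * p + p * q * T + q * q * N) : Subring.center A) : A) := by
    have h5 := h2.mul_left ((γ p + γ q * (γ T - θ) : Subring.center A) : A)
    rw [← Subring.coe_mul] at h5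
    convert h5 using 2
    simp only [map_add, map_mul]
    linear_combination γ q * γ q * hθθ
  have hfin : ∀ a : F, a ≠ 0 → Gen e ((γ a : Subring.center A) : A) → Gen e 1 := by
    intro a ha h
    have h5 := h.mul_left ((γ a⁻¹ : Subring.center A) : A)
    rwa [← Subring.coe_mul, ← map_mul, inv_mul_cancel₀ ha, map_one, Subring.coe_one] at h5
  by_cases h5 : 2 * p + q * T = 0
  · refine hfin _ (fun h6 => ?_) hn
    have hq0 : q = 0 := by
      have h7 : q * q * (T ^ 2 - 4 * N) = 0 := by
        linear_combination (2 * p + q * T) * h5 - 4 * h6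
      exact mul_self_eq_zero.1 ((mul_eq_zero.1 h7).resolve_right hdisc)
    refine hpq ⟨?_, hq0⟩
    rw [hq0] at h6
    apply mul_self_eq_zero.1
    linear_combination h6
  · exact hfin _ h5 hs

end Sym

section Main

variable {R k K : Type*} {D : Type u} [CommRing R] [IsDedekindDomain R] [Field k] [Algebra R k]
  [IsFractionRing R k] [Field K] [Ring D] [StarRing D] [Algebra k K] [Algebra k D] [Algebra K D]
  [IsScalarTower k K D] [Algebra R D] [IsScalarTower R k D]

/-- one good prime -/
theorem good_at' {O : Subalgebra R D}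
    (hstar : ∀ c : k, star (algebraMap k D c) = algebraMap k D c)
    (hO : ∀ x ∈ O, star x ∈ O) {θ : K} {T N : R}
    (hθs : star (algebraMap K D θ) = algebraMap R D T - algebraMap K D θ)
    (hθO : algebraMap K D θ ∈ O)
    (hθθ : θ * θ = algebraMap k K (algebraMap R k T) * θ - algebraMap k K (algebraMap R k N))
    (hK : ∀ α β : k, algebraMap k K α + algebraMap k K β * θ = 0 → α = 0 ∧ β = 0)
    {ι : Type*} [Fintype ι] [DecidableEq ι] (b : Module.Basis ι K D) (hbO : ∀ l, b l ∈ O)
    {v : Ideal R} (hv : v.IsMaximal) (hvfin : Finite (R ⧸ v))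
    (hLF : ∀ x ∈ O, ∃ m ∉ v, ∃ α β : ι → R, m • x = comb (algebraMap K D θ) b α β)
    (hdisc : T ^ 2 - 4 * N ∉ v)
    (hT : ∀ i j : ι, ∃ a : R, a ∉ v ∧ ∃ (m : ℕ) (x y : Fin m → O), ∀ l,
      ∑ t, (x t : D) * b l * y t = if l = j then a • b i else 0)
    {n : ℕ} (hn : n ≠ 0) (hι : Fintype.card ι = n ^ 2) :
    ∃ (A : Type u) (_ : Ring A) (_ : StarRing A) (ρ : Res k O v A), Finite A ∧
      Nat.card A ≤ Nat.card (R ⧸ v) ^ (2 * n ^ 2) ∧
      Nat.card (R ⧸ v) ^ (2 * n - 2) * (Nat.card (R ⧸ v) - 1) ≤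
          Nat.card {e : A // star e = e ∧ rkc e = Nat.card (R ⧸ v) ^ (2 * n)} ∧
        (∃ τ τ' : O, (τ' : D) = star (τ : D) ∧ (∀ x : O, x * τ = τ * x) ∧
          (∀ x : O, x * τ' = τ' * x) ∧ ρ.π (τ + τ') = 1) ∧
        ∀ e : A, star e = e → e ≠ 0 → ∃ (r : ℕ) (x y : Fin r → A), ∑ i, x i * e * y i = 1 := by
  classical
  obtain ⟨A, _, _, ρ, γ, hπ0, hγ, hγs⟩ := exists_res hstar hO v
  let hF : Field (R ⧸ v) := Ideal.Quotient.field v
  have hunit : ∀ m ∉ v, ∃ c : R ⧸ v, c * Ideal.Quotient.mk _ m = 1 := by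
    intro m hm
    have hm0 : (Ideal.Quotient.mk v m : R ⧸ v) ≠ 0 := by
      rwa [Ne, Ideal.Quotient.eq_zero_iff_mem]
    exact ⟨(Ideal.Quotient.mk v m : R ⧸ v)⁻¹, inv_mul_cancel₀ hm0⟩
  let θO : O := ⟨algebraMap K D θ, hθO⟩
  have hθOc : ∀ x : O, x * θO = θO * x := fun x =>
    Subtype.ext (Algebra.commutes θ (x : D)).symm
  let θA : Subring.center A := ⟨ρ.π θO, by
    rw [Subring.mem_center_iff]
    intro x
    obtain ⟨x, rfl⟩ := ρ.surj x
    rw [← map_mul, ← map_mul, hθOc]⟩
  have hθOs : star (θO : D) = ((algebraMap R O T - θO : O) : D) := hθs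
  have hθOθ : θO * θO = algebraMap R O T * θO - algebraMap R O N := by
    apply Subtype.ext
    show algebraMap K D θ * algebraMap K D θ =
      algebraMap R D T * algebraMap K D θ - algebraMap R D N
    rw [← map_mul, hθθ, map_sub, map_mul, ← IsScalarTower.algebraMap_apply k K D,
      ← IsScalarTower.algebraMap_apply k K D, ← IsScalarTower.algebraMap_apply R k D,
      ← IsScalarTower.algebraMap_apply R k D]
  let bO : ι → O := fun l => ⟨b l, hbO l⟩
  have hcombO : ∀ α β : ι → R, comb (algebraMap K D θ) b α β =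
      ((∑ l, (algebraMap R O (α l) + algebraMap R O (β l) * θO) * bO l : O) : D) := by
    intro α β
    unfold comb
    rw [AddSubmonoidClass.coe_finsetSum]
    rfl
  have hcoe : ∀ a c : R ⧸ v, ((γ a + γ c * θA : Subring.center A) : A) =
      (γ a : A) + γ c * ρ.π θO := fun a c => rfl
  have hγsum : ∀ α β : ι → R,
      ρ.π (∑ l, (algebraMap R O (α l) + algebraMap R O (β l) * θO) * bO l) =
      ∑ l, ((γ (Ideal.Quotient.mk _ (α l)) + γ (Ideal.Quotient.mk _ (β l)) * θA :
        Subring.center A) : A) * ρ.π (bO l) := by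
    intro α β
    rw [map_sum]
    refine Finset.sum_congr rfl fun l _ => ?_
    rw [map_mul, map_add, map_mul, hcoe, hγ, hγ]
  set g : (ι → (R ⧸ v) × (R ⧸ v)) → A := fun c =>
    ∑ l, ((γ (c l).1 + γ (c l).2 * θA : Subring.center A) : A) * ρ.π (bO l) with hgdef
  have hgadd : ∀ c c', g (c - c') = g c - g c' := by
    intro c c'
    rw [hgdef]
    simp only
    rw [← Finset.sum_sub_distrib]
    refine Finset.sum_congr rfl fun l _ => ?_
    rw [← sub_mul]
    congr 1
    rw [← AddSubgroupClass.coe_sub]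
    congr 1
    simp only [Pi.sub_apply, Prod.fst_sub, Prod.snd_sub, map_sub]
    ring
  have hg : Function.Bijective g := by
    constructor
    · intro c c' h
      have h0 : g (c - c') = 0 := by rw [hgadd, h, sub_self]
      rw [← sub_eq_zero]
      generalize c - c' = e at h0
      choose α hα using fun l => Ideal.Quotient.mk_surjective (e l).1
      choose β hβ using fun l => Ideal.Quotient.mk_surjective (e l).2
      have h1 : ρ.π (∑ l, (algebraMap R O (α l) + algebraMap R O (β l) * θO) * bO l) = 0 := by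
        rw [hγsum, ← h0]
        refine Finset.sum_congr rfl fun l _ => ?_
        rw [hα, hβ]
      rw [hπ0] at h1
      obtain ⟨m, hm, α', β', h3, h4, h5⟩ := map_comb b hv.isPrime hLF h1
      rw [← hcombO, ← comb_smul] at h5
      obtain ⟨h6, h7⟩ := comb_inj hK b h5
      funext l
      have h8 : m * α l ∈ v := by
        have := congrFun h6 l
        rw [Pi.smul_apply, smul_eq_mul] at this
        rw [this]
        exact h3 l
      have h9 : m * β l ∈ v := by
        have := congrFun h7 l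
        rw [Pi.smul_apply, smul_eq_mul] at this
        rw [this]
        exact h4 l
      have h10 := (hv.isPrime.mem_or_mem h8).resolve_left hm
      have h11 := (hv.isPrime.mem_or_mem h9).resolve_left hm
      refine Prod.ext ?_ ?_
      · rw [← hα]
        exact Ideal.Quotient.eq_zero_iff_mem.2 h10
      · rw [← hβ]
        exact Ideal.Quotient.eq_zero_iff_mem.2 h11
    · intro z
      obtain ⟨x, rfl⟩ := ρ.surj z
      obtain ⟨m, hm, α, β, h⟩ := hLF x x.2
      obtain ⟨c, hc⟩ := hunit m hm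
      refine ⟨fun l => (c * Ideal.Quotient.mk _ (α l), c * Ideal.Quotient.mk _ (β l)), ?_⟩
      have h3 : m • x = ∑ l, (algebraMap R O (α l) + algebraMap R O (β l) * θO) * bO l := by
        apply Subtype.ext
        rw [← hcombO, ← h]
        rfl
      have h4 : (γ (Ideal.Quotient.mk _ m) : A) * ρ.π x =
          ∑ l, ((γ (Ideal.Quotient.mk _ (α l)) + γ (Ideal.Quotient.mk _ (β l)) * θA :
            Subring.center A) : A) * ρ.π (bO l) := by
        rw [← hγsum, ← h3, Algebra.smul_def, map_mul, hγ]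
      calc g _ = (γ c : A) * ∑ l, ((γ (Ideal.Quotient.mk _ (α l)) +
            γ (Ideal.Quotient.mk _ (β l)) * θA : Subring.center A) : A) * ρ.π (bO l) := by
            rw [hgdef, Finset.mul_sum]
            refine Finset.sum_congr rfl fun l _ => ?_
            rw [← mul_assoc, ← Subring.coe_mul]
            congr 2
            simp only [map_mul]
            ring
        _ = ρ.π x := by
            rw [← h4, ← mul_assoc, ← Subring.coe_mul, ← map_mul, hc, map_one, Subring.coe_one,
              one_mul]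
  have hAfin : Finite A := Finite.of_equiv _ (Equiv.ofBijective g hg)
  have hdisc' : (Ideal.Quotient.mk v T) ^ 2 - 4 * Ideal.Quotient.mk v N ≠ (0 : R ⧸ v) := by
    intro h
    apply hdisc
    rw [← Ideal.Quotient.eq_zero_iff_mem, map_sub, map_pow, map_mul, map_ofNat]
    exact h
  have hθsA : star (θA : A) = γ (Ideal.Quotient.mk v T) - θA := by
    show star (ρ.π θO) = _
    rw [← ρ.star_comm θO _ hθOs.symm, map_sub, hγ]
  have hθθA : θA * θA = γ (Ideal.Quotient.mk v T) * θA - γ (Ideal.Quotient.mk v N) := by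
    apply Subtype.ext
    show ρ.π θO * ρ.π θO = (γ _ : A) * ρ.π θO - (γ _ : A)
    rw [← map_mul, hθOθ, map_sub, map_mul, hγ, hγ]
  have hTA : ∀ i j, ∃ (m : ℕ) (x y : Fin m → A), ∀ l, ∑ t, x t * ρ.π (bO l) * y t =
      if l = j then ρ.π (bO i) else 0 := by
    intro i j
    obtain ⟨a, ha, m, x, y, h⟩ := hT i j
    obtain ⟨c, hc⟩ := hunit a ha
    refine ⟨m, fun t => (γ c : A) * ρ.π (x t), fun t => ρ.π (y t), fun l => ?_⟩
    have h6 : ∑ t, x t * bO l * y t = if l = j then a • bO i else 0 := by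
      apply Subtype.ext
      have h8 : ((∑ t, x t * bO l * y t : O) : D) = ∑ t, (x t : D) * b l * y t := by
        rw [AddSubmonoidClass.coe_finsetSum]
        rfl
      rw [h8, h l]
      split_ifs <;> rfl
    have h7 : ∑ t, (γ c : A) * ρ.π (x t) * ρ.π (bO l) * ρ.π (y t) =
        (γ c : A) * ρ.π (∑ t, x t * bO l * y t) := by
      rw [map_sum, Finset.mul_sum]
      refine Finset.sum_congr rfl fun t _ => ?_
      simp only [map_mul, mul_assoc]
    rw [h7, h6]
    split_ifs
    · rw [Algebra.smul_def, map_mul, ← hγ, ← mul_assoc, ← Subring.coe_mul, ← map_mul, hc, map_one,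
        Subring.coe_one, one_mul]
    · rw [map_zero, mul_zero]
  refine ⟨A, _, _, ρ, hAfin, ?_, ?_, ?_, ?_⟩
  · rw [← Nat.card_congr (Equiv.ofBijective g hg), Nat.card_fun, Nat.card_prod,
      Nat.card_eq_fintype_card (α := ι), hι, ← sq, ← pow_mul]
  · exact card_sym_of γ hγs θA hθsA hθθA hdisc' (fun l => ρ.π (bO l)) hg hTA hn hι
  · obtain ⟨c, hc⟩ := hunit _ hdisc
    obtain ⟨c, rfl⟩ := Ideal.Quotient.mk_surjective c
    have hRc : ∀ a : R, algebraMap R O a ∈ Subring.center O := fun a =>
      Subring.mem_center_iff.2 fun x => (Algebra.commutes a x).symm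
    have hsR : ∀ a : R, star (algebraMap R D a) = algebraMap R D a := by
      intro a
      rw [IsScalarTower.algebraMap_apply R k D, hstar]
    obtain ⟨θc, hθc⟩ : ∃ z : Subring.center O, (z : O) = θO :=
      ⟨⟨θO, Subring.mem_center_iff.2 hθOc⟩, rfl⟩
    obtain ⟨Tc, hTc⟩ : ∃ z : Subring.center O, (z : O) = algebraMap R O T := ⟨⟨_, hRc T⟩, rfl⟩
    obtain ⟨Nc, hNc⟩ : ∃ z : Subring.center O, (z : O) = algebraMap R O N := ⟨⟨_, hRc N⟩, rfl⟩
    obtain ⟨cc, hcc⟩ : ∃ z : Subring.center O, (z : O) = algebraMap R O c := ⟨⟨_, hRc c⟩, rfl⟩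
    have h1 : θc * θc = Tc * θc - Nc := by
      apply Subtype.ext
      show (θc : O) * (θc : O) = (Tc : O) * (θc : O) - (Nc : O)
      rw [hθc, hTc, hNc, hθOθ]
    refine ⟨(cc * (θc * (θc + θc - Tc)) : Subring.center O),
      (cc * ((Tc - θc) * (Tc - (θc + θc))) : Subring.center O), ?_, ?_, ?_, ?_⟩
    · have h2 : (cc * ((Tc - θc) * (Tc - (θc + θc))) : Subring.center O) =
          ((Tc - θc) + (Tc - θc) - Tc) * (Tc - θc) * cc := by ring
      rw [h2]
      have h3 : ((((Tc - θc) + (Tc - θc) - Tc) * (Tc - θc) * cc : Subring.center O) : O) =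
          ((algebraMap R O T - θO) + (algebraMap R O T - θO) - algebraMap R O T) *
            (algebraMap R O T - θO) * algebraMap R O c := by
        rw [← hTc, ← hθc, ← hcc]
        rfl
      have h4 : ((cc * (θc * (θc + θc - Tc)) : Subring.center O) : O) =
          algebraMap R O c * (θO * (θO + θO - algebraMap R O T)) := by
        rw [← hTc, ← hθc, ← hcc]
        rfl
      rw [h3, h4]
      show ((algebraMap R D T - algebraMap K D θ) + (algebraMap R D T - algebraMap K D θ) -
        algebraMap R D T) * (algebraMap R D T - algebraMap K D θ) * algebraMap R D c =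
        star (algebraMap R D c * (algebraMap K D θ * (algebraMap K D θ + algebraMap K D θ -
          algebraMap R D T)))
      simp only [star_mul, star_sub, star_add, hθs, hsR]
    · intro x
      exact Subring.mem_center_iff.1 (cc * (θc * (θc + θc - Tc)) : Subring.center O).2 x
    · intro x
      exact Subring.mem_center_iff.1 (cc * ((Tc - θc) * (Tc - (θc + θc))) : Subring.center O).2 x
    · rw [← Subring.coe_add]
      have h2 : (cc * (θc * (θc + θc - Tc)) + cc * ((Tc - θc) * (Tc - (θc + θc))) :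
          Subring.center O) = cc * (Tc ^ 2 - 4 * Nc) := by
        linear_combination 4 * cc * h1
      have h3 : ((cc * (Tc ^ 2 - 4 * Nc) : Subring.center O) : O) =
          algebraMap R O (c * (T ^ 2 - 4 * N)) := by
        rw [map_mul, map_sub, map_pow, map_mul, map_ofNat, ← hTc, ← hNc, ← hcc]
        rfl
      rw [h2, h3, ← hγ, map_mul, hc, map_one, Subring.coe_one]
  · exact exists_one_of_sym γ hγs θA hθsA hθθA hdisc' (fun l => ρ.π (bO l)) hg hTA

/-- the good set of primes is cofinite -/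
theorem exists_good' [IsSimpleRing D] [Algebra.IsCentral K D] {O : Subalgebra R D}
    (hstar : ∀ c : k, star (algebraMap k D c) = algebraMap k D c)
    (hO : ∀ x ∈ O, star x ∈ O) {θ : K} {T N : R}
    (hθs : star (algebraMap K D θ) = algebraMap R D T - algebraMap K D θ)
    (hθO : algebraMap K D θ ∈ O)
    (hθθ : θ * θ = algebraMap k K (algebraMap R k T) * θ - algebraMap k K (algebraMap R k N))
    (hdisc : T ^ 2 - 4 * N ≠ 0)
    (hK : ∀ α β : k, algebraMap k K α + algebraMap k K β * θ = 0 → α = 0 ∧ β = 0)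
    {ι : Type*} [Fintype ι] (b : Module.Basis ι K D) (hbO : ∀ l, b l ∈ O)
    (hfrac : ∀ x : D, ∃ a : R, a ≠ 0 ∧ a • x ∈ O) {B₀ : Set (HeightOneSpectrum R)}
    (hB₀ : B₀.Finite) (hLF : ∀ v ∉ B₀, ∀ x ∈ O, ∃ m ∉ v.asIdeal, ∃ α β : ι → R,
      m • x = comb (algebraMap K D θ) b α β) {n : ℕ} (hn : n ≠ 0) (hι : Fintype.card ι = n ^ 2) :
    ∃ B : Set (HeightOneSpectrum R), B.Finite ∧ B₀ ⊆ B ∧ ∀ v ∉ B, Finite (R ⧸ v.asIdeal) →
      ∃ (A : Type u) (_ : Ring A) (_ : StarRing A) (ρ : Res k O v.asIdeal A), Finite A ∧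
        Nat.card A ≤ Nat.card (R ⧸ v.asIdeal) ^ (2 * n ^ 2) ∧
        Nat.card (R ⧸ v.asIdeal) ^ (2 * n - 2) * (Nat.card (R ⧸ v.asIdeal) - 1) ≤
          Nat.card {e : A // star e = e ∧ rkc e = Nat.card (R ⧸ v.asIdeal) ^ (2 * n)} ∧
        (∃ τ τ' : O, (τ' : D) = star (τ : D) ∧ (∀ x : O, x * τ = τ * x) ∧
          (∀ x : O, x * τ' = τ' * x) ∧ ρ.π (τ + τ') = 1) ∧
        ∀ e : A, star e = e → e ≠ 0 → ∃ (r : ℕ) (x y : Fin r → A), ∑ i, x i * e * y i = 1 := by
  classical
  choose aT haT0 mT xT yT hT using exists_ops (D := D) b hfrac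
  have hfin : ∀ a : R, a ≠ 0 → {v : HeightOneSpectrum R | a ∈ v.asIdeal}.Finite := by
    intro a ha
    have h1 : Ideal.span {a} ≠ 0 := by
      rw [Ne, Ideal.zero_eq_bot, Ideal.span_singleton_eq_bot]
      exact ha
    refine (Ideal.finite_factors h1).subset fun v hv => ?_
    show v.asIdeal ∣ Ideal.span {a}
    rw [Ideal.dvd_span_singleton]
    exact hv
  refine ⟨B₀ ∪ {v | T ^ 2 - 4 * N ∈ v.asIdeal} ∪ ⋃ p : ι × ι, {v | aT p.1 p.2 ∈ v.asIdeal}, ?_, ?_,
    ?_⟩
  · exact (hB₀.union (hfin _ hdisc)).union (Set.finite_iUnion fun p => hfin _ (haT0 _ _))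
  · intro v hv
    exact Or.inl (Or.inl hv)
  intro v hv hvfin
  simp only [Set.mem_union, Set.mem_iUnion, Set.mem_ofPred_eq, not_or, not_exists] at hv
  obtain ⟨⟨hvB₀, hvd⟩, hvT⟩ := hv
  refine good_at' hstar hO hθs hθO hθθ hK b hbO v.isMaximal hvfin (hLF v hvB₀) hvd ?_ hn hι
  intro i j
  exact ⟨aT i j * aT i j, fun h => (v.isPrime.mem_or_mem h).elim (hvT (i, j)) (hvT (i, j)), mT i j,
    xT i j, yT i j, hT i j⟩

end Main

end Vale.Agent.P011.H401
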